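import Mathlib

/-!
# Finite random recursions: maximal and exponential tail inequalities

A run of length `n` is `w : Fin n → κ` with product weight. A state evolves by `step`; a potential
that does not grow in mean is unlikely to become large at any time, and this gives the
exponential tail of a sum with small conditional exponential moments.
-/

namespace Vale.Agent.P078.Local

open Finset

section

variable {σ κ : Type*} [Fintype κ] (p : κ → ℝ) (step : σ → κ → σ)

/-- product weight of a run -/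
def wgt {n : ℕ} (w : Fin n → κ) : ℝ := ∏ i, p (w i)

/-- mean over runs of length `n` -/
def mean (n : ℕ) (f : (Fin n → κ) → ℝ) : ℝ := ∑ w, wgt p w * f w

/-- the state after the first `k` steps -/
def runTo : {n : ℕ} → σ → (Fin n → κ) → ℕ → σ
  | 0, s, _, _ => s
  | _ + 1, s, _, 0 => s
  | _ + 1, s, w, k + 1 => runTo (step s (w 0)) (Fin.tail w) k

theorem runTo_zero {n : ℕ} (s : σ) (w : Fin n → κ) : runTo step s w 0 = s := by
  cases n <;> rfl

theorem runTo_succ {n : ℕ} (s : σ) (x : κ) (w : Fin n → κ) (k : ℕ) :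
    runTo step s (Fin.cons x w) (k + 1) = runTo step (step s x) w k := by
  show runTo step (step s (Fin.cons (α := fun _ => κ) x w 0))
    (Fin.tail (Fin.cons (α := fun _ => κ) x w)) k = _
  rw [Fin.cons_zero, Fin.tail_cons]

theorem mean_succ (n : ℕ) (f : (Fin (n + 1) → κ) → ℝ) :
    mean p (n + 1) f = ∑ x, p x * mean p n fun w => f (Fin.cons x w) := by
  classical
  unfold mean
  rw [← (Fin.consEquiv fun _ : Fin (n + 1) => κ).sum_comp, Fintype.sum_prod_type]
  refine sum_congr rfl fun x _ => ?_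
  rw [mul_sum]
  refine sum_congr rfl fun w _ => ?_
  simp only [Fin.consEquiv, Equiv.coe_fn_mk, wgt, Fin.prod_univ_succ, Fin.cons_zero, Fin.cons_succ]
  ring

theorem mean_zero (f : (Fin 0 → κ) → ℝ) : mean p 0 f = f Fin.elim0 := by
  unfold mean wgt
  rw [Fintype.sum_unique]
  simp [Subsingleton.elim (default : Fin 0 → κ) Fin.elim0]

theorem mean_mono (hp : ∀ x, 0 ≤ p x) {n : ℕ} {f g : (Fin n → κ) → ℝ} (h : ∀ w, f w ≤ g w) :
    mean p n f ≤ mean p n g :=
  sum_le_sum fun w _ => mul_le_mul_of_nonneg_left (h w) (prod_nonneg fun _ _ => hp _)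

theorem mean_const (hp1 : ∑ x, p x = 1) : ∀ (n : ℕ) (a : ℝ), mean p n (fun _ => a) = a
  | 0, a => mean_zero p _
  | n + 1, a => by
    rw [mean_succ]
    simp only [mean_const hp1 n a, ← sum_mul, hp1, one_mul]

open Classical in
/-- **Maximal inequality.** -/
theorem maximal (hp : ∀ x, 0 ≤ p x) (hp1 : ∑ x, p x = 1) {F : σ → ℝ} (hF : ∀ s, 0 ≤ F s)
    (hstep : ∀ s, ∑ x, p x * F (step s x) ≤ F s) {a : ℝ} (ha : 0 < a) :
    ∀ (n : ℕ) (s : σ),
      mean p n (fun w => if ∃ k ≤ n, a ≤ F (runTo step s w k) then (1 : ℝ) else 0) ≤ F s / a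
  | 0, s => by
    rw [mean_zero]
    split_ifs with h
    · obtain ⟨k, hk, h⟩ := h
      rw [Nat.le_zero.1 hk] at h
      rwa [le_div_iff₀ ha, one_mul]
    · exact div_nonneg (hF s) ha.le
  | n + 1, s => by
    by_cases hs : a ≤ F s
    · refine le_trans ?_ ((one_le_div ha).2 hs)
      refine (mean_mono p hp fun w => ?_).trans (le_of_eq (mean_const p hp1 (n + 1) 1))
      split_ifs <;> norm_num
    · rw [mean_succ]
      calc ∑ x, p x * mean p n (fun w =>
            if ∃ k ≤ n + 1, a ≤ F (runTo step s (Fin.cons x w) k) then (1 : ℝ) else 0)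
          ≤ ∑ x, p x * (F (step s x) / a) := by
            refine sum_le_sum fun x _ => mul_le_mul_of_nonneg_left
              (le_trans (mean_mono p hp fun w => ?_) (maximal hp hp1 hF hstep ha n _)) (hp x)
            split_ifs with h h'
            · exact le_rfl
            · exfalso
              obtain ⟨k, hk, hk'⟩ := h
              rcases k with _ | k
              · rw [runTo_zero] at hk'; exact hs hk'
              · rw [runTo_succ] at hk'; exact h' ⟨k, by omega, hk'⟩
            · norm_num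
            · exact le_rfl
        _ = (∑ x, p x * F (step s x)) / a := by
            rw [sum_div]; exact sum_congr rfl fun x _ => by ring
        _ ≤ F s / a := div_le_div_of_nonneg_right (hstep s) ha.le

/-- the state augmented by a sum and a bracket -/
def augStep (xi : σ → κ → ℝ) (b : σ → ℝ) : σ × ℝ × ℝ → κ → σ × ℝ × ℝ :=
  fun t x => (step t.1 x, t.2.1 + xi t.1 x, t.2.2 + b t.1)

open Classical in
/-- **Exponential tail.** If the conditional exponential moment of `lam * xi` is at most
`exp (lam ^ 2 * b / 2)`, then the sum reaches `y` with bracket at most `v` at some time with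
probability at most `exp (-(lam * y - lam ^ 2 * v / 2))`. -/
theorem tail_bound (hp : ∀ x, 0 ≤ p x) (hp1 : ∑ x, p x = 1) (xi : σ → κ → ℝ) (b : σ → ℝ)
    {lam : ℝ} (hlam : 0 ≤ lam)
    (hxi : ∀ s, ∑ x, p x * Real.exp (lam * xi s x) ≤ Real.exp (lam ^ 2 * b s / 2))
    (y v : ℝ) (n : ℕ) (s : σ) :
    mean p n (fun w => if ∃ k ≤ n, y ≤ (runTo (augStep step xi b) (s, 0, 0) w k).2.1 ∧
        (runTo (augStep step xi b) (s, 0, 0) w k).2.2 ≤ v then (1 : ℝ) else 0)
      ≤ Real.exp (-(lam * y - lam ^ 2 * v / 2)) := by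
  have hF : ∀ t : σ × ℝ × ℝ, 0 ≤ Real.exp (lam * t.2.1 - lam ^ 2 * t.2.2 / 2) :=
    fun t => (Real.exp_pos _).le
  have hstep : ∀ t : σ × ℝ × ℝ, ∑ x, p x *
      Real.exp (lam * (augStep step xi b t x).2.1 - lam ^ 2 * (augStep step xi b t x).2.2 / 2)
      ≤ Real.exp (lam * t.2.1 - lam ^ 2 * t.2.2 / 2) := by
    intro t
    set K := Real.exp (lam * t.2.1 - lam ^ 2 * (t.2.2 + b t.1) / 2) with hK
    calc _ = ∑ x, p x * Real.exp (lam * xi t.1 x) * K := by
          refine sum_congr rfl fun x _ => ?_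
          rw [hK, mul_assoc, ← Real.exp_add]
          congr 1
          simp only [augStep]
          congr 1
          ring
      _ ≤ Real.exp (lam ^ 2 * b t.1 / 2) * K := by
          rw [← sum_mul]; exact mul_le_mul_of_nonneg_right (hxi t.1) (Real.exp_pos _).le
      _ = _ := by rw [hK, ← Real.exp_add]; congr 1; ring
  have hm := maximal p (augStep step xi b) hp hp1 hF hstep
    (a := Real.exp (lam * y - lam ^ 2 * v / 2)) (Real.exp_pos _) n (s, 0, 0)
  refine le_trans (mean_mono p hp fun w => ?_) (hm.trans (le_of_eq ?_))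
  · split_ifs with h h'
    · exact le_rfl
    · obtain ⟨k, hk, h1, h2⟩ := h
      refine absurd ⟨k, hk, Real.exp_le_exp.2 ?_⟩ h'
      have := mul_le_mul_of_nonneg_left h1 hlam
      have := mul_le_mul_of_nonneg_left h2 (sq_nonneg lam)
      linarith
    · norm_num
    · exact le_rfl
  · rw [← Real.exp_sub]; congr 1; ring

open Classical in
/-- The tail at the best parameter, when the moment bound holds for every parameter. -/
theorem tail_bound_sq (hp : ∀ x, 0 ≤ p x) (hp1 : ∑ x, p x = 1) (xi : σ → κ → ℝ) (b : σ → ℝ)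
    (hxi : ∀ lam : ℝ, 0 ≤ lam → ∀ s,
      ∑ x, p x * Real.exp (lam * xi s x) ≤ Real.exp (lam ^ 2 * b s / 2))
    {y v : ℝ} (hy : 0 ≤ y) (hv : 0 < v) (n : ℕ) (s : σ) :
    mean p n (fun w => if ∃ k ≤ n, y ≤ (runTo (augStep step xi b) (s, 0, 0) w k).2.1 ∧
        (runTo (augStep step xi b) (s, 0, 0) w k).2.2 ≤ v then (1 : ℝ) else 0)
      ≤ Real.exp (-(y ^ 2 / (2 * v))) := by
  refine le_trans (tail_bound p step hp hp1 xi b (div_nonneg hy hv.le)
    (hxi _ (div_nonneg hy hv.le)) y v n s) (le_of_eq ?_)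
  congr 2
  field_simp
  ring

omit [Fintype κ] in
/-- A fair sign times a number has exponential moment at most that of a Gaussian. -/
theorem sign_moment (a lam : ℝ) :
    (1 / 2) * Real.exp (lam * a) + (1 / 2) * Real.exp (lam * -a)
      ≤ Real.exp (lam ^ 2 * a ^ 2 / 2) := by
  have h := Real.cosh_le_exp_half_sq (lam * a)
  rw [Real.cosh_eq] at h
  calc _ = (Real.exp (lam * a) + Real.exp (-(lam * a))) / 2 := by rw [mul_neg]; ring
    _ ≤ _ := h.trans (le_of_eq (by rw [mul_pow]))

/-- A centred bounded variable has exponential moment at most `exp (lam ^ 2 * E xi ^ 2)`. -/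
theorem centred_moment (hp : ∀ x, 0 ≤ p x) (hp1 : ∑ x, p x = 1) {xi : κ → ℝ}
    (h0 : ∑ x, p x * xi x = 0) {lam : ℝ} (hb : ∀ x, |lam * xi x| ≤ 1) :
    ∑ x, p x * Real.exp (lam * xi x) ≤ Real.exp (lam ^ 2 * ∑ x, p x * xi x ^ 2) := by
  have h1 : ∀ x, Real.exp (lam * xi x) ≤ 1 + lam * xi x + (lam * xi x) ^ 2 := fun x => by
    have := Real.abs_exp_sub_one_sub_id_le (hb x)
    linarith [le_abs_self (Real.exp (lam * xi x) - 1 - lam * xi x)]
  calc ∑ x, p x * Real.exp (lam * xi x)
      ≤ ∑ x, (p x + lam * (p x * xi x) + lam ^ 2 * (p x * xi x ^ 2)) :=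
        sum_le_sum fun x _ => (mul_le_mul_of_nonneg_left (h1 x) (hp x)).trans (le_of_eq (by ring))
    _ = 1 + lam ^ 2 * ∑ x, p x * xi x ^ 2 := by
        rw [sum_add_distrib, sum_add_distrib, hp1, ← mul_sum, ← mul_sum, h0]; ring
    _ ≤ _ := by linarith [Real.add_one_le_exp (lam ^ 2 * ∑ x, p x * xi x ^ 2)]

end

end Vale.Agent.P078.Local
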