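import Vale.Agent.P078.Local.Prob.Tail

/-!
# Tails for an observable with martingale part and drift

`G` grows in one step by at most `xi + d`, where `xi` has exponential moment given by the bracket
`b` and `d` is a drift. Conditions may be switched off by making `xi, b, d` vanish.
-/

namespace Vale.Agent.P078.Local

open Finset

section

variable {σ κ : Type*} [Fintype κ] (p : κ → ℝ) (step : σ → κ → σ)

/-- the state augmented by three sums -/
def augDrift (xi : σ → κ → ℝ) (b d : σ → ℝ) : σ × ℝ × ℝ × ℝ → κ → σ × ℝ × ℝ × ℝ :=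
  fun t x => (step t.1 x, t.2.1 + xi t.1 x, t.2.2.1 + b t.1, t.2.2.2 + d t.1)

omit [Fintype κ] in
theorem augDrift_spec (xi : σ → κ → ℝ) (b d : σ → ℝ) : ∀ (n : ℕ) (t : σ × ℝ × ℝ × ℝ)
    (w : Fin n → κ) (k : ℕ),
    (runTo (augDrift step xi b d) t w k).1 = runTo step t.1 w k ∧
    (runTo (augDrift step xi b d) t w k).2.1
      = (runTo (augStep step xi b) (t.1, t.2.1, t.2.2.1) w k).2.1 ∧
    (runTo (augDrift step xi b d) t w k).2.2.1
      = (runTo (augStep step xi b) (t.1, t.2.1, t.2.2.1) w k).2.2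
  | 0, _, _, _ => ⟨rfl, rfl, rfl⟩
  | _ + 1, _, _, 0 => ⟨rfl, rfl, rfl⟩
  | n + 1, t, w, k + 1 => augDrift_spec xi b d n _ (Fin.tail w) k

omit [Fintype κ] in
theorem le_sums {G : σ → ℝ} (xi : σ → κ → ℝ) (b d : σ → ℝ)
    (hG : ∀ s x, G (step s x) ≤ G s + xi s x + d s) : ∀ (n : ℕ) (t : σ × ℝ × ℝ × ℝ)
    (w : Fin n → κ) (k : ℕ),
    G (runTo (augDrift step xi b d) t w k).1 - (runTo (augDrift step xi b d) t w k).2.1
        - (runTo (augDrift step xi b d) t w k).2.2.2 ≤ G t.1 - t.2.1 - t.2.2.2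
  | 0, _, _, _ => le_rfl
  | _ + 1, _, _, 0 => le_rfl
  | n + 1, t, w, k + 1 => by
    refine (le_sums xi b d hG n _ (Fin.tail w) k).trans ?_
    simp only [augDrift]
    linarith [hG t.1 (w 0)]

open Classical in
/-- `G` rises by `y + u` while the bracket is at most `v` and the drift at most `u` with
probability at most `exp (-y^2 / 2v)`. -/
theorem drift_tail (hp : ∀ x, 0 ≤ p x) (hp1 : ∑ x, p x = 1) {G : σ → ℝ} (xi : σ → κ → ℝ)
    (b d : σ → ℝ) (hG : ∀ s x, G (step s x) ≤ G s + xi s x + d s)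
    (hxi : ∀ lam : ℝ, 0 ≤ lam → ∀ s,
      ∑ x, p x * Real.exp (lam * xi s x) ≤ Real.exp (lam ^ 2 * b s / 2))
    {y v u : ℝ} (hy : 0 ≤ y) (hv : 0 < v) (n : ℕ) (s : σ) :
    mean p n (fun w => if ∃ k ≤ n, G s + y + u ≤ G (runTo step s w k) ∧
        (runTo (augDrift step xi b d) (s, 0, 0, 0) w k).2.2.1 ≤ v ∧
        (runTo (augDrift step xi b d) (s, 0, 0, 0) w k).2.2.2 ≤ u then (1 : ℝ) else 0)
      ≤ Real.exp (-(y ^ 2 / (2 * v))) := by
  refine le_trans (mean_mono p hp fun w => ?_) (tail_bound_sq p step hp hp1 xi b hxi hy hv n s)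
  split_ifs with h h'
  · exact le_rfl
  · obtain ⟨k, hk, h1, h2, h3⟩ := h
    obtain ⟨e1, e2, e3⟩ := augDrift_spec step xi b d n (s, 0, 0, 0) w k
    have hs := le_sums step xi b d hG n (s, 0, 0, 0) w k
    dsimp only at e1 e2 e3 hs
    rw [e1, e2] at hs
    exact absurd ⟨k, hk, by linarith, e3 ▸ h2⟩ h'
  · norm_num
  · exact le_rfl

/-- **Telescoping.** A potential that drops in mean by the cost, up to `tau` per step, bounds the
mean total cost. -/
theorem mean_cost_le (hp : ∀ x, 0 ≤ p x) (hp1 : ∑ x, p x = 1) {F c : σ → ℝ} {tau : ℝ}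
    (hF : ∀ s, 0 ≤ F s) (hstep : ∀ s, ∑ x, p x * F (step s x) + c s ≤ F s + tau) :
    ∀ (n : ℕ) (s : σ),
      mean p n (fun w => ∑ k ∈ range n, c (runTo step s w k)) ≤ F s + n * tau
  | 0, s => by rw [mean_zero]; simpa using hF s
  | n + 1, s => by
    rw [mean_succ]
    calc ∑ x, p x * mean p n (fun w => ∑ k ∈ range (n + 1), c (runTo step s (Fin.cons x w) k))
        = ∑ x, p x * (c s + mean p n (fun w => ∑ k ∈ range n, c (runTo step (step s x) w k))) := by
          refine sum_congr rfl fun x _ => ?_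
          congr 1
          conv_rhs => rw [← mean_const p hp1 n (c s)]
          simp only [mean, ← sum_add_distrib, ← mul_add]
          refine sum_congr rfl fun w _ => ?_
          rw [sum_range_succ', runTo_zero]
          simp only [runTo_succ]
          ring
      _ ≤ ∑ x, p x * (c s + (F (step s x) + n * tau)) :=
          sum_le_sum fun x _ => mul_le_mul_of_nonneg_left
            (add_le_add le_rfl (mean_cost_le hp hp1 hF hstep n _)) (hp x)
      _ = (∑ x, p x * F (step s x)) + c s + n * tau := by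
          simp only [mul_add, sum_add_distrib, ← sum_mul, hp1]; ring
      _ ≤ F s + (n + 1 : ℕ) * tau := by push_cast; linarith [hstep s]

end

end Vale.Agent.P078.Local
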