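import Vale.Agent.P078.Local.Prob.Tail

/-!
# Products of conditional probabilities

If at each of a set of times an event of that step has probability at most `q` given the past,
all of them happen with probability at most the product; two families are combined by
Cauchy-Schwarz.
-/

namespace Vale.Agent.P078.Local

open Finset

section

variable {σ κ : Type*} [Fintype κ] (p : κ → ℝ) (step : σ → κ → σ)

open Classical in
/-- **Product bound.** `ev j s x`: the event of step `j`, from state `s` with randomness `x`. -/
theorem product_bound (hp : ∀ x, 0 ≤ p x) (hp1 : ∑ x, p x = 1) :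
    ∀ (n : ℕ) (ev : ℕ → σ → κ → Prop) (q : ℕ → ℝ) (J : Finset ℕ),
      (∀ j, 0 ≤ q j) → (∀ j ∈ J, j < n) →
      (∀ j ∈ J, ∀ s, ∑ x, p x * (if ev j s x then (1 : ℝ) else 0) ≤ q j) → ∀ s : σ,
      mean p n (fun w => if ∀ j ∈ J, ∀ hj : j < n, ev j (runTo step s w j) (w ⟨j, hj⟩)
        then (1 : ℝ) else 0) ≤ ∏ j ∈ J, q j
  | 0, ev, q, J, hq, hJ, _, s => by
    have : J = ∅ := Finset.eq_empty_of_forall_notMem fun j hj => Nat.not_lt_zero j (hJ j hj)
    subst this
    rw [mean_zero]; simp
  | n + 1, ev, q, J, hq, hJ, hev, s => by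
    set J' : Finset ℕ := (J.erase 0).image fun j => j - 1 with hJ'
    have hmem : ∀ i, i ∈ J' ↔ i + 1 ∈ J := fun i => by
      simp only [hJ', mem_image, mem_erase]
      constructor
      · rintro ⟨j, ⟨hj0, hj⟩, rfl⟩; rwa [Nat.sub_add_cancel (Nat.pos_of_ne_zero hj0)]
      · intro h; exact ⟨i + 1, ⟨Nat.succ_ne_zero i, h⟩, rfl⟩
    have ih := product_bound hp hp1 n (fun j => ev (j + 1)) (fun j => q (j + 1)) J' (fun j => hq _)
      (fun i hi => by have := hJ _ ((hmem i).1 hi); omega) (fun i hi => hev _ ((hmem i).1 hi))
    have hprod : ∏ j ∈ J.erase 0, q j = ∏ i ∈ J', q (i + 1) := by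
      rw [hJ', prod_image (fun a ha b hb e => by
        have := (mem_erase.1 ha).1; have := (mem_erase.1 hb).1; omega)]
      exact prod_congr rfl fun j hj => by
        rw [Nat.sub_add_cancel (Nat.pos_of_ne_zero (mem_erase.1 hj).1)]
    have hP0 : 0 ≤ ∏ i ∈ J', q (i + 1) := prod_nonneg fun i _ => hq _
    rw [mean_succ]
    calc ∑ x, p x * mean p n (fun w => if ∀ j ∈ J, ∀ hj : j < n + 1,
          ev j (runTo step s (Fin.cons x w) j) ((Fin.cons x w : Fin (n + 1) → κ) ⟨j, hj⟩)
          then (1 : ℝ) else 0)
        ≤ ∑ x, p x * ((if 0 ∈ J → ev 0 s x then (1 : ℝ) else 0) * ∏ i ∈ J', q (i + 1)) := by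
          refine sum_le_sum fun x _ => mul_le_mul_of_nonneg_left ?_ (hp x)
          by_cases h0 : 0 ∈ J → ev 0 s x
          · rw [if_pos h0, one_mul]
            refine le_trans (mean_mono p hp fun w => ?_) (ih (step s x))
            split_ifs with h h'
            · exact le_rfl
            · refine absurd (fun i hi hin => ?_) h'
              have := h (i + 1) ((hmem i).1 hi) (by omega)
              rw [runTo_succ] at this
              exact this
            · norm_num
            · exact le_rfl
          · rw [if_neg h0, zero_mul]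
            refine le_trans (mean_mono p hp fun w => ?_) (le_of_eq (mean_const p hp1 n 0))
            rw [if_neg]
            intro h
            apply h0
            intro hj
            have := h 0 hj (Nat.succ_pos n)
            rw [runTo_zero] at this
            exact this
      _ = (∑ x, p x * (if 0 ∈ J → ev 0 s x then (1 : ℝ) else 0)) * ∏ i ∈ J', q (i + 1) := by
          rw [sum_mul]; exact sum_congr rfl fun x _ => by ring
      _ ≤ ∏ j ∈ J, q j := by
          by_cases h0 : 0 ∈ J
          · rw [← mul_prod_erase J q h0, hprod]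
            refine mul_le_mul_of_nonneg_right ?_ hP0
            simp only [h0, forall_const]
            exact hev 0 h0 s
          · rw [Finset.erase_eq_of_notMem h0] at hprod
            simp only [h0, IsEmpty.forall_iff, if_true, mul_one, hp1, one_mul]
            exact hprod.ge

/-- **Cauchy-Schwarz** for means. -/
theorem mean_mul_sq (hp : ∀ x, 0 ≤ p x) {n : ℕ} (f g : (Fin n → κ) → ℝ) :
    mean p n (fun w => f w * g w) ^ 2
      ≤ mean p n (fun w => f w ^ 2) * mean p n (fun w => g w ^ 2) := by
  have hw : ∀ w : Fin n → κ, 0 ≤ wgt p w := fun w => prod_nonneg fun _ _ => hp _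
  unfold mean
  have h := sum_mul_sq_le_sq_mul_sq univ (fun w => Real.sqrt (wgt p w) * f w)
    (fun w => Real.sqrt (wgt p w) * g w)
  refine le_trans (le_of_eq ?_) (h.trans (le_of_eq ?_))
  · congr 1
    refine sum_congr rfl fun w _ => ?_
    calc wgt p w * (f w * g w)
        = Real.sqrt (wgt p w) * Real.sqrt (wgt p w) * (f w * g w) := by
          rw [Real.mul_self_sqrt (hw w)]
      _ = _ := by ring
  · simp only [mul_pow, Real.sq_sqrt (hw _)]

end

end Vale.Agent.P078.Local
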